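import Vale.Agent.P181.BAL.Defs
import Vale.Agent.P181.TL.H976.TwoA

set_option autoImplicit false

/-!
# P181, BAL: (B11) from `CoreD`, the near linear theorem and few boxes below row two
-/

namespace Vale.Agent.P181.BAL.H976

open Vale.Agent.P181.H280 (plethMult)
open Vale.Agent.P181.SZ Vale.Agent.P181.TL Vale.Agent.P181.TL.H976 Vale.Agent.P181.BAL

/-- `CoreD` with simpler hypotheses. -/
theorem driveD (hC : CoreD) {a b k q m r : ℕ} {lam : Fin (k + 3) → ℕ}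
    (hsum : ∑ i, lam i = a * b) (ha : 1 ≤ a) (hqd : q = 5 + 16 * dn2 lam / a ^ 2)
    (hm8 : 8 * q ≤ m) (hmr : r * q ^ 2 ≤ m) (hr : 4 ≤ r)
    (hbig : 12 * (r * (4 * m * q ^ 2)) ^ 2 * q ≤ a)
    (hs : 16 * (4 * m * q ^ 2) ^ 2 ≤ dn2 lam / a)
    (hlam1 : r * lam 2 + 4 * a ^ 2 ≤ r * lam 1)
    (hlam0 : lam 1 ≤ lam 0) (hbt : b ≤ dn2 lam + a) (h1000a : 1000 * a ≤ b)
    (h1000t : 1000 * dn2 lam ≤ a * b) :
    plethMult a b (k + 3) lam ≤ plethMult b a (k + 3) lam := by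
  have hq5 : 5 ≤ q := by rw [hqd]; exact Nat.le_add_right _ _
  have hm1 : 1 ≤ m := by omega
  obtain ⟨D, hD⟩ : ∃ D, D = 4 * m * q ^ 2 := ⟨_, rfl⟩
  rw [← hD] at hbig hs
  have hqq : q ≤ q ^ 2 := by nlinarith
  have hDm : 4 * q ^ 2 ≤ D := by
    rw [hD]
    exact Nat.mul_le_mul_right _ (by omega)
  have hD1 : 1 ≤ D := by omega
  have hrD : r * D ≤ (r * D) ^ 2 := by
    have : 1 ≤ r * D := Nat.mul_pos (by omega) hD1
    nlinarith
  have hbig1 : 12 * (r * D) * q ≤ a :=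
    le_trans (Nat.mul_le_mul_right _ (Nat.mul_le_mul_left _ hrD)) hbig
  have hbig2 : 12 * (r * D) ≤ a := by
    refine le_trans ?_ hbig1
    exact Nat.le_mul_of_pos_right _ (by omega)
  have hrD' : r * (4 * q ^ 2) ≤ r * D := Nat.mul_le_mul_left _ hDm
  have h4D : 4 * D ≤ r * D := Nat.mul_le_mul_right _ hr
  have hrr : r * 1 ≤ r * D := Nat.mul_le_mul_left _ hD1
  have h40 : 40 * q ≤ a := by omega
  have ha240 : 240 ≤ a := by
    have h1 : 25 ≤ q ^ 2 := by nlinarith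
    omega
  have ha0 : 0 < a := ha
  obtain ⟨s, hsd⟩ : ∃ s, s = dn2 lam / a := ⟨_, rfl⟩
  rw [← hsd] at hs
  have hsa : s * a ≤ dn2 lam := by rw [hsd]; exact Nat.div_mul_le_self _ _
  have hsa' : dn2 lam < (s + 1) * a := by
    rw [hsd, mul_comm]
    exact Nat.lt_mul_div_succ _ ha0
  have htq : 16 * dn2 lam < a ^ 2 * q := by
    have h1 : 16 * dn2 lam < a ^ 2 * (16 * dn2 lam / a ^ 2 + 1) :=
      Nat.lt_mul_div_succ _ (by positivity)
    exact h1.trans_le (Nat.mul_le_mul_left _ (by omega))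
  have hsq : s + 3 ≤ q * a := by
    have h4 : a * (16 * s) < a * (a * q) := by
      calc a * (16 * s) = 16 * (s * a) := by ring
        _ ≤ 16 * dn2 lam := Nat.mul_le_mul_left _ hsa
        _ < a ^ 2 * q := htq
        _ = a * (a * q) := by ring
    have h5 : 16 * s < a * q := Nat.lt_of_mul_lt_mul_left h4
    have h6 : a * 5 ≤ a * q := Nat.mul_le_mul_left _ hq5
    have h7 : q * a = a * q := mul_comm _ _
    omega
  have hX1 := sqrt_bound hD1 hs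
  have hX2 := sqrt_bound' (E := r * D) hsq (by
    refine le_trans ?_ hbig
    exact Nat.mul_le_mul_right _ (Nat.mul_le_mul_right _ (by norm_num)))
  have hX3 : 3 * (s + 3) ≤ (Nat.sqrt (3 * (s + 3)) + 1) ^ 2 := (Nat.lt_succ_sqrt' _).le
  obtain ⟨X, hXd⟩ : ∃ X, X = Nat.sqrt (3 * (s + 3)) + 1 := ⟨_, rfl⟩
  rw [← hXd] at hX1 hX2 hX3
  have hXp : 1 ≤ X := by omega
  obtain ⟨E, hE⟩ : ∃ E, E = 2 * q ^ 2 * a + 2 * m * q ^ 2 * (2 * X) * a + q ^ 2 * a * (a / m) +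
    2 * a := ⟨_, rfl⟩
  have hE1 : r * (2 * q ^ 2 * a) ≤ a ^ 2 := by
    calc r * (2 * q ^ 2 * a) = r * (2 * q ^ 2) * a := by ring
      _ ≤ a * a := Nat.mul_le_mul_right _ (by
          have : r * (2 * q ^ 2) ≤ r * (4 * q ^ 2) := Nat.mul_le_mul_left _ (by omega)
          omega)
      _ = a ^ 2 := by ring
  have hE2 : r * (2 * m * q ^ 2 * (2 * X) * a) ≤ a ^ 2 := by
    calc r * (2 * m * q ^ 2 * (2 * X) * a) = r * D * X * a := by rw [hD]; ring
      _ ≤ a * a := Nat.mul_le_mul_right _ hX2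
      _ = a ^ 2 := by ring
  have hE3 : r * (q ^ 2 * a * (a / m)) ≤ a ^ 2 := by
    calc r * (q ^ 2 * a * (a / m)) = r * q ^ 2 * (a / m) * a := by ring
      _ ≤ m * (a / m) * a :=
        Nat.mul_le_mul_right _ (Nat.mul_le_mul_right _ hmr)
      _ ≤ a * a := Nat.mul_le_mul_right _ (Nat.mul_div_le a m)
      _ = a ^ 2 := by ring
  have hE4 : r * (2 * a) ≤ a ^ 2 := by
    calc r * (2 * a) = (2 * r) * a := by ring
      _ ≤ a * a := Nat.mul_le_mul_right _ (by omega)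
      _ = a ^ 2 := by ring
  have hEr : r * E ≤ 4 * a ^ 2 := by
    rw [hE, mul_add, mul_add, mul_add]
    omega
  have hE5 : E ≤ a ^ 2 := by
    have h1 : 4 * E ≤ r * E := Nat.mul_le_mul_right _ hr
    omega
  have hLl : lam 2 + E ≤ lam 1 := by
    have h1 : r * (lam 2 + E) ≤ r * lam 1 := by
      rw [mul_add]
      omega
    exact Nat.le_of_mul_le_mul_left h1 (by omega)
  have hl2 : lam 2 ≤ dn2 lam :=
    Finset.single_le_sum (f := fun i : Fin (k + 1) => lam i.succ.succ) (fun _ _ => Nat.zero_le _)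
      (Finset.mem_univ 0)
  have hl1 : 2 * lam 1 ≤ a * b := by
    have h1 : ∑ i, lam i = lam 0 + ∑ i, tl lam i := by
      rw [Fin.sum_univ_succ]
      rfl
    have h2 : ∑ i, tl lam i = lam 1 + dn2 lam := sum_tl lam
    omega
  have haa : a ^ 2 = a * a := pow_two a
  have h1000a' : 1000 * a ^ 2 ≤ a * b := by
    calc 1000 * a ^ 2 = a * (1000 * a) := by ring
      _ ≤ a * b := Nat.mul_le_mul_left _ h1000a
  have h18 : 18 * a ≤ a ^ 2 := by
    rw [pow_two]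
    exact Nat.mul_le_mul_right _ (by omega)
  obtain ⟨K, hK⟩ : ∃ K, K = (lam 1 - (lam 2 + E)) / (5 * a - 6) := ⟨_, rfl⟩
  have hp : 0 < 5 * a - 6 := by omega
  have hK1 : K * (5 * a - 6) ≤ lam 1 - (lam 2 + E) := by
    rw [hK]; exact Nat.div_mul_le_self _ _
  have hK2 : lam 1 - (lam 2 + E) < K * (5 * a - 6) + (5 * a - 6) := by
    have := Nat.lt_mul_div_succ (lam 1 - (lam 2 + E)) hp
    rw [← hK, mul_add, mul_one, mul_comm (5 * a - 6) K] at this
    exact this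
  have hK3 : 49 * (a * K) ≤ 10 * (K * (5 * a - 6)) := by
    calc 49 * (a * K) = K * (49 * a) := by ring
      _ ≤ K * (10 * (5 * a - 6)) := Nat.mul_le_mul_left _ (by omega)
      _ = 10 * (K * (5 * a - 6)) := by ring
  refine hC a b k q m X K lam hsum (by omega) hqd hm8 h40 hXp ?_ ?_ ?_ hlam0 ?_ ?_
  · rw [Nat.le_div_iff_mul_le (by omega), ← hsd]
    calc 2 * m * q * (2 * X) * q = 4 * m * q ^ 2 * X := by ring
      _ = D * X := by rw [hD]
      _ ≤ s := hX1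
  · have h1 : a + b ≤ (s + 3) * a := by
      have : (s + 3) * a = (s + 1) * a + 2 * a := by ring
      omega
    have h2 : a + dn2 lam ≤ (s + 3) * a := by
      have : (s + 3) * a = (s + 1) * a + 2 * a := by ring
      omega
    calc 9 * (a + b) * (a + dn2 lam) ≤ 9 * ((s + 3) * a) * ((s + 3) * a) := by gcongr
      _ = a ^ 2 * (3 * (s + 3)) ^ 2 := by ring
      _ ≤ a ^ 2 * (X ^ 2) ^ 2 := by gcongr
      _ = a ^ 2 * X ^ 4 := by ring
  · have h1 : 640 * dn2 lam ≤ a ^ 3 := by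
      have h2 : 640 * dn2 lam ≤ a ^ 2 * (40 * q) := by
        calc 640 * dn2 lam = 40 * (16 * dn2 lam) := by ring
          _ ≤ 40 * (a ^ 2 * q) := Nat.mul_le_mul_left _ htq.le
          _ = a ^ 2 * (40 * q) := by ring
      calc 640 * dn2 lam ≤ a ^ 2 * (40 * q) := h2
        _ ≤ a ^ 2 * a := Nat.mul_le_mul_left _ h40
        _ = a ^ 3 := by ring
    have h3 : a * b + 1 ≤ a ^ 4 := by
      have h4 : 240 * 240 * a ≤ a ^ 3 := by
        calc 240 * 240 * a ≤ a * a * a := by gcongr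
          _ = a ^ 3 := by ring
      have h5 : b + 1 ≤ a ^ 3 := by omega
      calc a * b + 1 ≤ a * b + a := by omega
        _ = a * (b + 1) := by ring
        _ ≤ a * a ^ 3 := Nat.mul_le_mul_left _ h5
        _ = a ^ 4 := by ring
    calc a * b + 1 ≤ a ^ 4 := h3
      _ ≤ (2 ^ a) ^ 4 := Nat.pow_le_pow_left Nat.lt_two_pow_self.le 4
      _ = 2 ^ (4 * a) := by rw [← pow_mul, mul_comm]
  · rw [hE] at hK1 hLl
    omega
  · have h1 : a * ((lam 1 + dn2 lam - K * (5 * a - 6)) / a) ≤ lam 1 + dn2 lam - K * (5 * a - 6) :=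
      Nat.mul_div_le _ _
    have hq3 : 3 * q * a ^ 2 ≤ 15 * a ^ 2 + 48 * dn2 lam := by
      have h1 : 16 * dn2 lam / a ^ 2 * a ^ 2 ≤ 16 * dn2 lam := Nat.div_mul_le_self _ _
      have h2 : 3 * q * a ^ 2 = 15 * a ^ 2 + 3 * (16 * dn2 lam / a ^ 2 * a ^ 2) := by
        rw [hqd]; ring
      omega
    obtain ⟨Y, hY⟩ : ∃ Y, Y = (lam 1 + dn2 lam - K * (5 * a - 6)) / a := ⟨_, rfl⟩
    rw [← hY] at h1 ⊢
    obtain ⟨P, hP⟩ : ∃ P, P = K * (5 * a - 6) := ⟨_, rfl⟩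
    rw [← hP] at h1 hK1 hK2 hK3
    obtain ⟨W, hW⟩ : ∃ W, W = a * K := ⟨_, rfl⟩
    rw [← hW] at hK3
    obtain ⟨Z, hZ⟩ : ∃ Z, Z = a * Y := ⟨_, rfl⟩
    rw [← hZ] at h1
    obtain ⟨Q, hQ⟩ : ∃ Q, Q = 3 * q * a ^ 2 := ⟨_, rfl⟩
    rw [← hQ] at hq3
    have h2 : a * (3 * q * a + 3 * Y + 3 + 9 * K) = Q + 3 * Z + 3 * a + 9 * W := by
      rw [hQ, hZ, hW]; ring
    have h3 : a * (3 * q * a + 3 * Y + 3 + 9 * K) ≤ a * b := by
      rw [h2]
      omega
    exact Nat.le_of_mul_le_mul_left h3 ha0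

/-- **(B11)**. -/
theorem twoLongD (hC : CoreD) (hP : NearLin) (hF : FewTwo) : TwoLongD := by
  intro θ hθ
  obtain ⟨C₀, c, hC₀⟩ := hP
  obtain ⟨C₁, hC₁⟩ : ∃ x : ℝ, x = max C₀ 1 := ⟨_, rfl⟩
  have hC1 : 1 ≤ C₁ := hC₁ ▸ le_max_right _ _
  have hP' : ∀ a b : ℕ, C₁ * a * (1 + Real.log a) ^ c ≤ b →
      ∀ (n : ℕ) (lam : Fin n → ℕ), plethMult a b n lam ≤ plethMult b a n lam := by
    intro a b hab
    refine hC₀ a b (le_trans ?_ hab)
    have h0 : 0 ≤ (1 + Real.log (a : ℝ)) ^ c :=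
      pow_nonneg (by linarith [Real.log_natCast_nonneg a]) c
    have h1 : C₀ ≤ C₁ := hC₁ ▸ le_max_left _ _
    gcongr
  obtain ⟨r, hr4, hrθ⟩ : ∃ r : ℕ, 4 ≤ r ∧ 4 ≤ r * θ := by
    refine ⟨max 4 ⌈4 / θ⌉₊, le_max_left _ _, ?_⟩
    have h1 : 4 / θ ≤ (max 4 ⌈4 / θ⌉₊ : ℕ) :=
      (Nat.le_ceil _).trans (by exact_mod_cast le_max_right 4 ⌈4 / θ⌉₊)
    rwa [div_le_iff₀ hθ] at h1
  obtain ⟨A₂, hA₂⟩ := exists_polylog_le (4096 * r ^ 4 * (5 + C₁) ^ 9) (9 * c)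
  obtain ⟨A₁, h216, hAA⟩ : ∃ A₁ : ℕ, 12 * (r * (5184 * r)) ^ 2 * 6 ≤ A₁ ∧ A₂ ≤ A₁ :=
    ⟨max (12 * (r * (5184 * r)) ^ 2 * 6) A₂, le_max_left _ _, le_max_right _ _⟩
  refine ⟨max (C₁ * (1 + Real.log A₁) ^ c) (max 1000 (16 * (5184 * r) ^ 2 + 1)),
    lt_of_lt_of_le (by norm_num : (0 : ℝ) < 1000) ((le_max_left _ _).trans (le_max_right _ _)),
    ?_⟩
  intro a b k lam hlam hsum hab hθa hCt
  have hb1 : C₁ * (1 + Real.log A₁) ^ c * a ≤ b :=
    (mul_le_mul_of_nonneg_right (le_max_left _ _) (by positivity)).trans hab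
  have hb2 : (1000 : ℝ) * a ≤ b :=
    (mul_le_mul_of_nonneg_right ((le_max_left _ _).trans (le_max_right _ _))
      (by positivity)).trans hab
  have hb3 : (16 * (5184 * r) ^ 2 + 1 : ℝ) * a ≤ b :=
    (mul_le_mul_of_nonneg_right ((le_max_right _ _).trans (le_max_right _ _))
      (by positivity)).trans hab
  have ht : (1000 : ℝ) * (dn2 lam : ℝ) ≤ a * b :=
    (mul_le_mul_of_nonneg_right ((le_max_left _ _).trans (le_max_right _ _))
      (by positivity)).trans hCt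
  rcases lt_or_ge a A₁ with haA | haA
  · -- small `a`
    apply hP' a b _ _ lam
    refine le_trans ?_ hb1
    have : (1 + Real.log (a : ℝ)) ^ c ≤ (1 + Real.log (A₁ : ℝ)) ^ c := by
      rcases Nat.eq_zero_or_pos a with h0 | h0
      · subst h0
        simp only [Nat.cast_zero, Real.log_zero, add_zero, one_pow]
        exact one_le_pow₀ (by linarith [Real.log_natCast_nonneg A₁])
      · apply pow_le_pow_left₀ (by linarith [Real.log_natCast_nonneg a])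
        have : Real.log (a : ℝ) ≤ Real.log (A₁ : ℝ) :=
          Real.log_le_log (by exact_mod_cast h0) (by exact_mod_cast haA.le)
        linarith
    calc C₁ * a * (1 + Real.log a) ^ c ≤ C₁ * a * (1 + Real.log A₁) ^ c := by gcongr
      _ = C₁ * (1 + Real.log A₁) ^ c * a := by ring
  by_cases hbL : C₁ * a * (1 + Real.log a) ^ c ≤ b
  · exact hP' a b hbL _ lam
  rw [not_le] at hbL
  have hA1 : 2 ≤ A₁ := by
    refine le_trans ?_ h216
    have h1 : 1 ≤ (r * (5184 * r)) ^ 2 := by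
      have : 0 < r * (5184 * r) := by positivity
      exact Nat.one_le_pow _ _ this
    omega
  by_cases hfew : dn2 lam + a ≤ b + 1
  · exact hF a b (k + 1) lam (by omega) hfew
  rw [not_le] at hfew
  have ha0 : 0 < a := by omega
  have hb2N : 1000 * a ≤ b := by exact_mod_cast hb2
  have hb3N : (16 * (5184 * r) ^ 2 + 1) * a ≤ b := by exact_mod_cast hb3
  have htN : 1000 * dn2 lam ≤ a * b := by exact_mod_cast ht
  have hl0 : lam 1 ≤ lam 0 := hlam (Fin.zero_le _)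
  have hl1 : r * lam 2 + 4 * a ^ 2 ≤ r * lam 1 := by
    have h1 : (r : ℝ) * lam 2 + 4 * (a : ℝ) ^ 2 ≤ r * lam 1 := by
      calc (r : ℝ) * lam 2 + 4 * (a : ℝ) ^ 2
          ≤ (r : ℝ) * lam 2 + r * θ * (a : ℝ) ^ 2 := by gcongr
        _ = r * ((lam 2 : ℝ) + θ * (a : ℝ) ^ 2) := by ring
        _ ≤ r * lam 1 := by gcongr
    exact_mod_cast h1
  by_cases hcase : 16 * dn2 lam ≤ a ^ 2
  · have hq : 16 * dn2 lam / a ^ 2 ≤ 1 := by
      have h1 : 0 < a ^ 2 := by positivity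
      have : 16 * dn2 lam / a ^ 2 < 2 := by
        rw [Nat.div_lt_iff_lt_mul h1]
        omega
      omega
    obtain ⟨q, hqd⟩ : ∃ q, q = 5 + 16 * dn2 lam / a ^ 2 := ⟨_, rfl⟩
    have hq6 : q ≤ 6 := by omega
    have hq2 : q ^ 2 ≤ 36 := by nlinarith
    have hD : 4 * (36 * r) * q ^ 2 ≤ 5184 * r := by
      calc 4 * (36 * r) * q ^ 2 ≤ 4 * (36 * r) * 36 := Nat.mul_le_mul_left _ hq2
        _ = 5184 * r := by ring
    refine driveD hC (m := 36 * r) (r := r) hsum (by omega) hqd (by omega) ?_ hr4 ?_ ?_ hl1 hl0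
      (by omega) hb2N htN
    · rw [mul_comm 36]
      exact Nat.mul_le_mul_left _ hq2
    · refine le_trans ?_ (h216.trans haA)
      exact Nat.mul_le_mul (Nat.mul_le_mul_left _ (Nat.pow_le_pow_left
        (Nat.mul_le_mul_left _ hD) 2)) hq6
    · rw [Nat.le_div_iff_mul_le ha0]
      have h2 : 16 * (4 * (36 * r) * q ^ 2) ^ 2 * a ≤ 16 * (5184 * r) ^ 2 * a :=
        Nat.mul_le_mul_right _ (Nat.mul_le_mul_left _ (Nat.pow_le_pow_left hD 2))
      have h3 : (16 * (5184 * r) ^ 2 + 1) * a = 16 * (5184 * r) ^ 2 * a + a := by ring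
      omega
  · rw [not_le] at hcase
    have hL1 : 1 ≤ (1 + Real.log (a : ℝ)) ^ c :=
      one_le_pow₀ (by linarith [Real.log_natCast_nonneg a])
    obtain ⟨q, hqd⟩ : ∃ q, q = 5 + 16 * dn2 lam / a ^ 2 := ⟨_, rfl⟩
    have hqR := q_boundE hC1 hL1 ha0 (by omega : 60 * dn2 lam ≤ a * b) hbL hqd
    have hq5 : 5 ≤ q := by rw [hqd]; exact Nat.le_add_right _ _
    have h1 := hA₂ a (hAA.trans haA)
    have h2 : (q : ℝ) ^ 9 ≤ ((5 + C₁) * (1 + Real.log a) ^ c) ^ 9 := by gcongr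
    have h3 : (4096 * r ^ 4 : ℝ) * (q : ℝ) ^ 9 ≤ a := by
      calc (4096 * r ^ 4 : ℝ) * (q : ℝ) ^ 9
          ≤ 4096 * r ^ 4 * ((5 + C₁) * (1 + Real.log a) ^ c) ^ 9 := by gcongr
        _ = 4096 * r ^ 4 * (5 + C₁) ^ 9 * (1 + Real.log a) ^ (9 * c) := by
            rw [mul_pow, ← pow_mul, mul_comm c 9]; ring
        _ ≤ a := h1
    have hq9 : 4096 * r ^ 4 * q ^ 9 ≤ a := by exact_mod_cast h3
    refine driveD hC (m := r * q ^ 2) (r := r) hsum (by omega) hqd ?_ le_rfl hr4 ?_ ?_ hl1 hl0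
      (by omega) hb2N htN
    · calc 8 * q ≤ (4 * 5) * q := Nat.mul_le_mul_right _ (by norm_num)
        _ ≤ (r * q) * q := Nat.mul_le_mul_right _ (Nat.mul_le_mul hr4 hq5)
        _ = r * q ^ 2 := by ring
    · calc 12 * (r * (4 * (r * q ^ 2) * q ^ 2)) ^ 2 * q = 192 * (r ^ 4 * q ^ 9) := by ring
        _ ≤ 4096 * (r ^ 4 * q ^ 9) := Nat.mul_le_mul_right _ (by norm_num)
        _ = 4096 * r ^ 4 * q ^ 9 := by ring
        _ ≤ a := hq9
    · rw [Nat.le_div_iff_mul_le ha0]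
      have h8 : 4096 * r ^ 2 * q ^ 8 ≤ a := by
        refine le_trans ?_ hq9
        have h5 : r ^ 2 ≤ r ^ 4 := Nat.pow_le_pow_right (by omega) (by norm_num)
        have h6 : q ^ 8 ≤ q ^ 9 := Nat.pow_le_pow_right (by omega) (by norm_num)
        exact Nat.mul_le_mul (Nat.mul_le_mul_left _ h5) h6
      have h4 : 16 * (16 * (4 * (r * q ^ 2) * q ^ 2) ^ 2 * a) ≤ a ^ 2 := by
        calc 16 * (16 * (4 * (r * q ^ 2) * q ^ 2) ^ 2 * a)
            = (4096 * r ^ 2 * q ^ 8) * a := by ring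
          _ ≤ a * a := Nat.mul_le_mul_right _ h8
          _ = a ^ 2 := by ring
      omega

end Vale.Agent.P181.BAL.H976
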