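import Vale.Agent.P181.BAL.H976.TwoD
import Vale.Agent.P181.BAL.H968.CoreD
import Vale.Agent.P181.BAL.H676.Transfer
import Vale.Agent.P181.BAL.H935.Line
import Vale.Agent.P181.BAL.H809.Law
import Vale.Agent.P181.BAL.H648.ContrDeg
import Vale.Agent.P181.BAL.H708.Fam
import Vale.Agent.P181.BAL.H368.NineK
import Vale.Agent.P181.BAL.H467.Nine
import Vale.Agent.P181.TL.H976.Plug
import Vale.Agent.P181.TL.H214.UpB
import Vale.Agent.P181.TL.H639.BalB
import Vale.Agent.P181.TL.H307.LowP
import Vale.Agent.P181.TL.H307.KeyP
import Vale.Agent.P181.TL.H353.Ref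
import Vale.Agent.P181.TL.H248.LiftC
import Vale.Agent.P181.TL.H968.GrowP
import Vale.Agent.P181.TL.H797.CoreP
import Vale.Agent.P181.SZR2.Lower
import Vale.Agent.P181.SZT0.Tr

set_option autoImplicit false

/-!
# P181, TL+ and BAL: the closed forms
-/

namespace Vale.Agent.P181.BAL.H976

open Vale.Agent.P181.TL Vale.Agent.P181.BAL

/-- **(T6+)** without hypotheses. -/
theorem lowP_closed : LowP :=
  H307.lowP H353.refB H248.liftC H307.keyP Vale.Agent.P181.SZR2.lowerS
    Vale.Agent.P181.SZT0.transS

/-- **(E+)** without hypotheses. -/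
theorem coreP_closed : CoreP :=
  H797.coreP H214.upB H639.balB lowP_closed H968.growP

/-- **(T8+)** without hypotheses. -/
theorem twoLongA_closed : TwoLongA :=
  TL.H976.twoLongA coreP_closed TL.H976.nearLin TL.H976.fewTwo

/-- **(B9)** from nine letters. -/
theorem balance_of (h : Nine) : Balance :=
  H676.balance (H676.transfer H935.line H809.law H648.contrB H648.degB)
    (H708.fam (H368.nineK h))

/-- **(B10)** from nine letters. -/
theorem coreD_of (h : Nine) : CoreD :=
  BAL.H968.coreD H214.upB H639.balB lowP_closed TL.H968.growP (balance_of h)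

/-- **(B11)** from nine letters. -/
theorem twoLongD_of (h : Nine) : TwoLongD :=
  twoLongD (coreD_of h) TL.H976.nearLin TL.H976.fewTwo

/-- **(B11)** without hypotheses: two long rows and an arbitrary tail, nothing about
`λ_1 - λ_2`. -/
theorem twoLongD_closed : TwoLongD := twoLongD_of H467.nine

end Vale.Agent.P181.BAL.H976
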